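import Mathlib.Algebra.Central.TensorProduct
import Mathlib.Algebra.Central.Matrix
import Mathlib.FieldTheory.JacobsonNoether
import Mathlib.FieldTheory.IsSepClosed
import Mathlib.FieldTheory.SeparableClosure
import Mathlib.LinearAlgebra.TensorProduct.Basis
import Mathlib.LinearAlgebra.Matrix.ToLin
import Mathlib.RingTheory.SimpleModule.WedderburnArtin
import Mathlib.RingTheory.SimpleRing.Congr
import Mathlib.RingTheory.SimpleRing.Matrix

/-!
# Central simple algebras in every characteristic

The base change `E ⊗[K] A` of a central simple algebra is central simple; over a separably closed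
field every finite dimensional central simple algebra is a matrix algebra (Jacobson-Noether).
-/

open Module TensorProduct

namespace Vale.Agent.P011.H268

section tensor

variable {K A E : Type*} [Field K] [Ring A] [Algebra K A] [Field E] [Algebra K E]

open Classical in
/-- coordinates of the base change -/
noncomputable def crd {ι : Type*} (b : Basis ι K E) : E ⊗[K] A ≃ₗ[K] ι →₀ A :=
  TensorProduct.equivFinsuppOfBasisLeft b

theorem crd_tmul {ι : Type*} (b : Basis ι K E) (e : E) (d : A) (i : ι) :
    crd b (e ⊗ₜ d) i = b.repr e i • d := by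
  classical
  exact TensorProduct.equivFinsuppOfBasisLeft_apply_tmul_apply b e d i

theorem crd_symm {ι : Type*} (b : Basis ι K E) (v : ι →₀ A) :
    (crd b).symm v = v.sum fun i n => b i ⊗ₜ n := by
  classical
  exact TensorProduct.equivFinsuppOfBasisLeft_symm_apply b v

theorem crd_mul_right {ι : Type*} (b : Basis ι K E) (x : E ⊗[K] A) (d : A) (i : ι) :
    crd b (x * (1 ⊗ₜ d)) i = crd b x i * d := by
  induction x using TensorProduct.induction_on with
  | zero => simp
  | tmul e c =>
    rw [Algebra.TensorProduct.tmul_mul_tmul, mul_one, crd_tmul, crd_tmul, smul_mul_assoc]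
  | add x y hx hy => rw [add_mul, map_add, map_add, Finsupp.add_apply, Finsupp.add_apply, hx, hy,
      add_mul]

theorem crd_mul_left {ι : Type*} (b : Basis ι K E) (x : E ⊗[K] A) (d : A) (i : ι) :
    crd b ((1 ⊗ₜ d) * x) i = d * crd b x i := by
  induction x using TensorProduct.induction_on with
  | zero => simp
  | tmul e c =>
    rw [Algebra.TensorProduct.tmul_mul_tmul, one_mul, crd_tmul, crd_tmul, mul_smul_comm]
  | add x y hx hy => rw [mul_add, map_add, map_add, Finsupp.add_apply, Finsupp.add_apply, hx, hy,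
      mul_add]

/-- an element whose coordinates are central comes from `E` -/
theorem mem_of_crd {ι : Type*} (b : Basis ι K E) (x : E ⊗[K] A)
    (h : ∀ i, crd b x i ∈ Set.range (algebraMap K A)) : ∃ e : E, x = e ⊗ₜ 1 := by
  choose k hk using h
  refine ⟨(crd b x).sum fun i _ => k i • b i, ?_⟩
  have h1 : x = (crd b x).sum fun i n => b i ⊗ₜ n := by
    rw [← crd_symm, LinearEquiv.symm_apply_apply]
  refine h1.trans ?_
  rw [Finsupp.sum, Finsupp.sum, TensorProduct.sum_tmul]
  refine Finset.sum_congr rfl fun i _ => ?_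
  rw [← hk i, TensorProduct.smul_tmul, Algebra.algebraMap_eq_smul_one]

/-- The tensor product of a field extension and a nonzero algebra is not zero. -/
theorem nontrivial_tensor [Nontrivial A] : Nontrivial (E ⊗[K] A) := by
  classical
  let b := Basis.ofVectorSpace K E
  refine ⟨⟨1, 0, ?_⟩⟩
  intro h10
  obtain ⟨i, hi⟩ : ∃ i, b.repr (1 : E) i ≠ 0 := by
    by_contra hcon
    push Not at hcon
    have h2 : b.repr (1 : E) = 0 := Finsupp.ext hcon
    exact one_ne_zero (b.repr.map_eq_zero_iff.mp h2)
  have h1 := congrArg (fun x => crd b x i) h10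
  simp only [Algebra.TensorProduct.one_def, crd_tmul, map_zero, Finsupp.zero_apply,
    Algebra.smul_def, mul_one, map_eq_zero] at h1
  exact hi h1

variable [Algebra.IsCentral K A]

theorem mem_range_of_comm {d : A} (h : ∀ c : A, c * d = d * c) :
    d ∈ Set.range (algebraMap K A) := by
  have h1 : d ∈ Subalgebra.center K A := by
    rw [Subalgebra.mem_center_iff]
    intro c
    exact h c
  rw [Algebra.IsCentral.center_eq_bot, Algebra.mem_bot] at h1
  exact h1

/-- the centre of the base change -/
theorem center_tensor {x : E ⊗[K] A} (h : ∀ d : A, (1 ⊗ₜ d) * x = x * (1 ⊗ₜ d)) :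
    ∃ e : E, x = e ⊗ₜ 1 := by
  let b := Basis.ofVectorSpace K E
  apply mem_of_crd b
  intro i
  apply mem_range_of_comm
  intro c
  rw [← crd_mul_left, h, crd_mul_right]

/-- The base change of a central algebra is central. -/
theorem isCentral_baseChange : Algebra.IsCentral E (E ⊗[K] A) := by
  refine ⟨fun x hx => ?_⟩
  rw [Subalgebra.mem_center_iff] at hx
  obtain ⟨e, rfl⟩ := center_tensor (x := x) fun d => hx _
  rw [Algebra.mem_bot]
  exact ⟨e, rfl⟩

variable [IsSimpleRing A]

omit [Algebra.IsCentral K A] in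
/-- Making a coordinate equal to `1`. -/
theorem exists_coord_one {ι : Type*} (b : Basis ι K E) (I : TwoSidedIdeal (E ⊗[K] A))
    {x : E ⊗[K] A} (hx : x ∈ I) {i0 : ι} (hi0 : crd b x i0 ≠ 0) :
    ∃ y ∈ I, crd b y i0 = 1 ∧ ∀ i, crd b x i = 0 → crd b y i = 0 := by
  classical
  let S : Set A := {d | ∃ y ∈ I, crd b y i0 = d ∧ ∀ i, crd b x i = 0 → crd b y i = 0}
  let J : TwoSidedIdeal A := TwoSidedIdeal.mk' S
    ⟨0, I.zero_mem, by simp, fun i _ => by simp⟩
    (by
      rintro c d ⟨y, hy, rfl, hy0⟩ ⟨z, hz, rfl, hz0⟩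
      exact ⟨y + z, I.add_mem hy hz, by simp, fun i hi => by simp [hy0 i hi, hz0 i hi]⟩)
    (by
      rintro d ⟨y, hy, rfl, hy0⟩
      exact ⟨-y, I.neg_mem hy, by simp, fun i hi => by simp [hy0 i hi]⟩)
    (by
      rintro c d ⟨y, hy, rfl, hy0⟩
      exact ⟨(1 ⊗ₜ c) * y, I.mul_mem_left _ _ hy, crd_mul_left _ _ _ _,
        fun i hi => by rw [crd_mul_left, hy0 i hi, mul_zero]⟩)
    (by
      rintro c d ⟨y, hy, rfl, hy0⟩
      exact ⟨y * (1 ⊗ₜ d), I.mul_mem_right _ _ hy, crd_mul_right _ _ _ _,
        fun i hi => by rw [crd_mul_right, hy0 i hi, zero_mul]⟩)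
  have hJ : crd b x i0 ∈ J := by
    rw [TwoSidedIdeal.mem_mk']
    exact ⟨x, hx, rfl, fun _ h => h⟩
  have h1 : (1 : A) ∈ J := IsSimpleRing.one_mem_of_ne_zero_mem J hi0 hJ
  rw [TwoSidedIdeal.mem_mk'] at h1
  exact h1

/-- The base change of a central simple algebra is simple. -/
theorem isSimpleRing_baseChange : IsSimpleRing (E ⊗[K] A) := by
  classical
  let b := Basis.ofVectorSpace K E
  have key : ∀ (n : ℕ) (I : TwoSidedIdeal (E ⊗[K] A)) (x : E ⊗[K] A), x ∈ I → x ≠ 0 →
      (crd b x).support.card = n → I = ⊤ := by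
    intro n
    induction n using Nat.strong_induction_on with
    | _ n ih =>
      intro I x hx hx0 hn
      have hv0 : crd b x ≠ 0 := by
        intro h0
        exact hx0 ((crd b).map_eq_zero_iff.mp h0)
      obtain ⟨i0, hi0⟩ : ∃ i, crd b x i ≠ 0 := by
        by_contra hcon
        push Not at hcon
        exact hv0 (Finsupp.ext hcon)
      obtain ⟨y, hyI, hy1, hyc⟩ := exists_coord_one b I hx hi0
      have hysup : (crd b y).support ⊆ (crd b x).support := by
        intro i hi
        rw [Finsupp.mem_support_iff] at hi ⊢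
        exact fun h0 => hi (hyc i h0)
      by_cases hcomm : ∀ d : A, (1 ⊗ₜ d) * y = y * (1 ⊗ₜ d)
      · obtain ⟨e, he⟩ := center_tensor hcomm
        have he0 : e ≠ 0 := by
          rintro rfl
          rw [TensorProduct.zero_tmul] at he
          rw [he, map_zero, Finsupp.zero_apply] at hy1
          exact zero_ne_one hy1
        rw [← TwoSidedIdeal.one_mem_iff]
        have h1 : (1 : E ⊗[K] A) = (e⁻¹ ⊗ₜ 1) * y := by
          rw [he, Algebra.TensorProduct.tmul_mul_tmul, inv_mul_cancel₀ he0, mul_one,
            Algebra.TensorProduct.one_def]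
        rw [h1]
        exact I.mul_mem_left _ _ hyI
      · push Not at hcomm
        obtain ⟨d, hd⟩ := hcomm
        obtain ⟨z, hz⟩ : ∃ z, z = (1 ⊗ₜ d) * y - y * (1 ⊗ₜ d) := ⟨_, rfl⟩
        have hzI : z ∈ I := by
          rw [hz]
          exact I.sub_mem (I.mul_mem_left _ _ hyI) (I.mul_mem_right _ _ hyI)
        have hz0 : z ≠ 0 := by rw [hz]; exact sub_ne_zero.mpr hd
        have hzc : ∀ i, crd b z i = d * crd b y i - crd b y i * d := by
          intro i
          rw [hz, map_sub, Finsupp.sub_apply, crd_mul_left, crd_mul_right]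
        refine ih (crd b z).support.card ?_ I z hzI hz0 rfl
        rw [← hn]
        apply Finset.card_lt_card
        rw [Finset.ssubset_iff_of_subset]
        · refine ⟨i0, by rw [Finsupp.mem_support_iff]; exact hi0, ?_⟩
          rw [Finsupp.mem_support_iff, hzc, hy1, mul_one, one_mul, sub_self]
          simp
        · intro i hi
          rw [Finsupp.mem_support_iff, hzc] at hi
          apply hysup
          rw [Finsupp.mem_support_iff]
          intro h0
          apply hi
          rw [h0, mul_zero, zero_mul, sub_self]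
  have hnt : Nontrivial (E ⊗[K] A) := nontrivial_tensor
  refine ⟨⟨fun I => ?_⟩⟩
  by_cases hI : I = ⊥
  · exact Or.inl hI
  · right
    obtain ⟨x, hx, hx0⟩ : ∃ x ∈ I, x ≠ 0 := by
      by_contra hcon
      push Not at hcon
      apply hI
      rw [eq_bot_iff]
      intro x hx
      rw [hcon x hx]
      exact zero_mem _
    exact key _ I x hx hx0 rfl

end tensor

section split

variable {K A E : Type*} [Field K] [Ring A] [Algebra K A] [Field E] [Algebra K E]
  [FiniteDimensional K A] [Algebra.IsCentral K A] [IsSimpleRing A]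

/-- A finite dimensional central division algebra over a separably closed field is the field. -/
theorem algebraMap_surjective_of_isSepClosed {E Δ : Type*} [Field E] [IsSepClosed E]
    [DivisionRing Δ] [Algebra E Δ] [FiniteDimensional E Δ] [Algebra.IsCentral E Δ] :
    Function.Surjective (algebraMap E Δ) := by
  by_contra hns
  have hne : (⊥ : Subalgebra E Δ) ≠ ⊤ := by
    intro h
    apply hns
    intro x
    have : x ∈ (⊥ : Subalgebra E Δ) := by rw [h]; trivial
    exact Algebra.mem_bot.1 this
  obtain ⟨x, hx, hsep⟩ := JacobsonNoether.exists_separable_and_not_isCentral' hne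
  apply hx
  have hint : IsIntegral E x := IsIntegral.of_finite E x
  have hirr : Irreducible (minpoly E x) := minpoly.irreducible hint
  have hdeg : (minpoly E x).degree = 1 := IsSepClosed.degree_eq_one_of_irreducible E hirr hsep
  rw [Algebra.mem_bot]
  exact minpoly.mem_range_of_degree_eq_one E x hdeg

/-- A finite dimensional central simple algebra splits over a separably closed field. -/
theorem exists_split_sepClosed [IsSepClosed E] {n : ℕ} (hA : finrank K A = n ^ 2) :
    Nonempty (A →ₐ[K] Matrix (Fin n) (Fin n) E) := by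
  have : IsSimpleRing (E ⊗[K] A) := isSimpleRing_baseChange
  have : Algebra.IsCentral E (E ⊗[K] A) := isCentral_baseChange
  have : IsArtinianRing (E ⊗[K] A) := IsArtinianRing.of_finite E _
  obtain ⟨m, hm, Δ, i1, i2, i3, ⟨ψ⟩⟩ :=
    IsSimpleRing.exists_algEquiv_matrix_divisionRing_finite E (E ⊗[K] A)
  have hcenM : Algebra.IsCentral E (Matrix (Fin m) (Fin m) Δ) := Algebra.IsCentral.of_algEquiv _ _ _ ψ
  have hcen : Algebra.IsCentral E Δ := by
    refine ⟨fun c hc => ?_⟩
    rw [Subalgebra.mem_center_iff] at hc
    have h1 : Matrix.scalar (Fin m) c ∈ Subalgebra.center E (Matrix (Fin m) (Fin m) Δ) := by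
      rw [Subalgebra.mem_center_iff]
      intro M
      ext i j
      rw [Matrix.scalar_apply, Matrix.mul_diagonal, Matrix.diagonal_mul]
      exact hc _
    rw [Algebra.IsCentral.center_eq_bot, Algebra.mem_bot] at h1
    obtain ⟨e, he⟩ := h1
    rw [Algebra.mem_bot]
    refine ⟨e, ?_⟩
    have h2 := congrFun (congrFun he 0) 0
    rw [Matrix.scalar_apply, Matrix.diagonal_apply_eq, Matrix.algebraMap_matrix_apply,
      if_pos rfl] at h2
    exact h2
  have hsurj : Function.Surjective (algebraMap E Δ) := algebraMap_surjective_of_isSepClosed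
  let e : E ≃ₐ[E] Δ := AlgEquiv.ofBijective (Algebra.ofId E Δ)
    ⟨(algebraMap E Δ).injective, hsurj⟩
  have h1 := ψ.toLinearEquiv.finrank_eq
  have h3 : finrank E Δ = 1 := by rw [← e.toLinearEquiv.finrank_eq, finrank_self]
  rw [Module.finrank_baseChange, hA, Module.finrank_matrix, Fintype.card_fin, h3,
    mul_one, ← pow_two] at h1
  have h2 : n = m := Nat.pow_left_injective (n := 2) (by norm_num) h1
  subst h2
  exact ⟨((e.symm.toAlgHom.mapMatrix.comp (ψ : E ⊗[K] A →ₐ[E] _)).restrictScalars K).comp
    Algebra.TensorProduct.includeRight⟩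

end split

end Vale.Agent.P011.H268
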