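import Vale.Agent.P011.H268.Csa
import Mathlib.FieldTheory.Galois.Infinite
import Mathlib.FieldTheory.Normal.Closure
import Mathlib.LinearAlgebra.Matrix.Charpoly.Coeff
import Mathlib.LinearAlgebra.Matrix.Kronecker
import Mathlib.RingTheory.Norm.Basic
import Mathlib.RingTheory.TensorProduct.Free
import Mathlib.Algebra.Star.Basic

/-!
# Reduced norms and reduced characteristic polynomials in every characteristic

`A` is a finite dimensional central simple algebra over an arbitrary field `K`, of dimension `n ^ 2`.
For all splittings `f : A →ₐ[K] Matrix (Fin n) (Fin n) Ω`, `Ω` any field extension: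

* `charpoly_compare`, `det_compare_gen`, `det_compare`: independence of the splitting;
* `exists_charpoly`, `exists_nrd`: the reduced characteristic polynomial and the reduced norm
  have coefficients in `K`;
* `nrd_star`: the reduced norm of `star x` is the conjugate of the reduced norm of `x`;
* `exists_galois_split`: splitting over a finite Galois extension.
-/

open Module TensorProduct Polynomial
open scoped Kronecker

namespace Vale.Agent.P011.H268

universe u v w

section pre

theorem charpoly_conj {F m : Type*} [Field F] [Fintype m] [DecidableEq m] {T : Matrix m m F}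
    (hT : IsUnit T) (N : Matrix m m F) : (T⁻¹ * N * T).charpoly = N.charpoly := by
  obtain ⟨U, rfl⟩ := hT
  exact Matrix.charpoly_units_conj' U N

variable {K A F : Type*} [Field K] [Ring A] [Algebra K A] [Field F] [Algebra K F] {n : ℕ}

/-- The twist of a splitting by an automorphism of the splitting field. -/
noncomputable def galTwist (σ : F ≃ₐ[K] F) (g : A →ₐ[K] Matrix (Fin n) (Fin n) F) :
    A →ₐ[K] Matrix (Fin n) (Fin n) F := (σ : F →ₐ[K] F).mapMatrix.comp g

theorem charpoly_galTwist (σ : F ≃ₐ[K] F) (g : A →ₐ[K] Matrix (Fin n) (Fin n) F) (x : A) :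
    (galTwist σ g x).charpoly = (g x).charpoly.map ((σ : F →ₐ[K] F) : F →+* F) := by
  have h : galTwist σ g x = (g x).map ((σ : F →ₐ[K] F) : F →+* F) := rfl
  rw [h, Matrix.charpoly_map]

end pre

section basic

variable {K A F : Type*} [Field K] [Ring A] [Algebra K A] [Field F] [Algebra K F] {n : ℕ}

/-- The base change of a splitting. -/
noncomputable def bcS (f : A →ₐ[K] Matrix (Fin n) (Fin n) F) :
    F ⊗[K] A →ₐ[F] Matrix (Fin n) (Fin n) F :=
  AlgHom.liftEquiv K F A (Matrix (Fin n) (Fin n) F) f

theorem bcS_tmul (f : A →ₐ[K] Matrix (Fin n) (Fin n) F) (e : F) (x : A) :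
    bcS f (e ⊗ₜ x) = e • f x := by
  rw [bcS, AlgHom.liftEquiv_tmul]

variable [Algebra.IsCentral K A] [IsSimpleRing A]

theorem bcS_injective (hn : 0 < n) (f : A →ₐ[K] Matrix (Fin n) (Fin n) F) :
    Function.Injective (bcS f) := by
  have : IsSimpleRing (F ⊗[K] A) := isSimpleRing_baseChange
  have : Nonempty (Fin n) := ⟨⟨0, hn⟩⟩
  exact (bcS f).toRingHom.injective

/-- Images of `K`-independent elements are `F`-independent. -/
theorem splitS_indep (hn : 0 < n) (f : A →ₐ[K] Matrix (Fin n) (Fin n) F) {ι : Type*}
    (b : Basis ι K A) : LinearIndependent F (fun i => f (b i)) := by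
  have h1 := (Algebra.TensorProduct.basis F b).linearIndependent
  have h2 := h1.map' (bcS f).toLinearMap (LinearMap.ker_eq_bot.2 (bcS_injective hn f))
  have h3 : (bcS f).toLinearMap ∘ (Algebra.TensorProduct.basis F b) = fun i => f (b i) := by
    funext i
    simp [bcS_tmul]
  rwa [h3] at h2

variable [FiniteDimensional K A]

/-- The characteristic polynomial of left multiplication is the `n`-th power of the reduced
characteristic polynomial. -/
theorem charpoly_pow (hn : 0 < n) (hA : finrank K A = n ^ 2)
    (f : A →ₐ[K] Matrix (Fin n) (Fin n) F) (u : A) :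
    (f u).charpoly ^ n
      = ((Algebra.leftMulMatrix ((Module.finBasisOfFinrankEq K A hA).reindex
          ((finCongr (sq n)).trans finProdFinEquiv.symm)) u).charpoly).map (algebraMap K F) := by
  let b : Basis (Fin n × Fin n) K A := (Module.finBasisOfFinrankEq K A hA).reindex
    ((finCongr (sq n)).trans finProdFinEquiv.symm)
  change (f u).charpoly ^ n = ((Algebra.leftMulMatrix b u).charpoly).map (algebraMap K F)
  let T : Matrix (Fin n × Fin n) (Fin n × Fin n) F := Matrix.of fun rs i => f (b i) rs.1 rs.2
  have hT : IsUnit T := by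
    rw [← Matrix.linearIndependent_cols_iff_isUnit]
    have h1 := splitS_indep hn f b
    rw [Fintype.linearIndependent_iff] at h1 ⊢
    intro g hg
    apply h1
    ext r s
    have := congrFun hg (r, s)
    simpa [Finset.sum_apply, Matrix.sum_apply, T, Matrix.col] using this
  have hM : (f u ⊗ₖ (1 : Matrix (Fin n) (Fin n) F)) * T =
      T * (Algebra.leftMulMatrix b u).map (algebraMap K F) := by
    ext ⟨r, s⟩ i
    have e1 : ((f u ⊗ₖ (1 : Matrix (Fin n) (Fin n) F)) * T) (r, s) i = (f (u * b i)) r s := by
      rw [map_mul, Matrix.mul_apply, Matrix.mul_apply, Fintype.sum_prod_type]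
      refine Finset.sum_congr rfl fun q _ => ?_
      rw [Finset.sum_eq_single s]
      · simp [T, Matrix.kroneckerMap_apply]
      · intro s' _ hs'
        simp [Matrix.kroneckerMap_apply, Ne.symm hs']
      · intro h; exact absurd (Finset.mem_univ _) h
    have e2 : u * b i = ∑ k, Algebra.leftMulMatrix b u k i • b k := by
      refine ((b.sum_repr (u * b i)).symm).trans (Finset.sum_congr rfl fun k _ => ?_)
      rw [Algebra.leftMulMatrix_eq_repr_mul]
    rw [e1, e2, map_sum, Matrix.sum_apply, Matrix.mul_apply]
    refine Finset.sum_congr rfl fun k _ => ?_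
    rw [map_smul]
    simp [T, Algebra.smul_def, mul_comm]
  have h1 : (Algebra.leftMulMatrix b u).map (algebraMap K F)
      = T⁻¹ * (f u ⊗ₖ (1 : Matrix (Fin n) (Fin n) F)) * T := by
    rw [mul_assoc, hM, ← mul_assoc, Matrix.nonsing_inv_mul _ ((Matrix.isUnit_iff_isUnit_det T).1 hT),
      one_mul]
  have h2 : ((Algebra.leftMulMatrix b u).map (algebraMap K F)).charpoly
      = (f u ⊗ₖ (1 : Matrix (Fin n) (Fin n) F)).charpoly := by
    rw [h1]
    exact charpoly_conj hT _
  have h3 : (f u ⊗ₖ (1 : Matrix (Fin n) (Fin n) F)).charpoly = (f u).charpoly ^ n := by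
    have h4 : (f u ⊗ₖ (1 : Matrix (Fin n) (Fin n) F)).charmatrix
        = (f u).charmatrix ⊗ₖ (1 : Matrix (Fin n) (Fin n) F[X]) := by
      ext ⟨r, s⟩ ⟨r', s'⟩
      by_cases hrr : r = r' <;> by_cases hss : s = s' <;>
        simp [Matrix.kroneckerMap_apply, hrr, hss]
    rw [Matrix.charpoly, h4, Matrix.det_kronecker, Matrix.det_one, one_pow, mul_one,
      Fintype.card_fin]
    rfl
  rw [← h3, ← h2, Matrix.charpoly_map]

theorem eq_of_monic_pow {M : Type*} [Field M] {P Q : M[X]} (hP : P.Monic) (hQ : Q.Monic) {n : ℕ}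
    (hn : n ≠ 0) (h : P ^ n = Q ^ n) : P = Q := by
  have h1 : P ∣ Q := (UniqueFactorizationMonoid.pow_dvd_pow_iff_dvd hn).mp (dvd_of_eq h)
  have h2 : Q ∣ P := (UniqueFactorizationMonoid.pow_dvd_pow_iff_dvd hn).mp (dvd_of_eq h.symm)
  exact eq_of_monic_of_associated hP hQ (associated_of_dvd_dvd h1 h2)

variable {L M : Type*} [Field L] [Algebra K L] [Field M]

/-- Reduced characteristic polynomials computed in two splitting fields agree. -/
theorem charpoly_compare (hn : 0 < n) (hA : finrank K A = n ^ 2)
    (f : A →ₐ[K] Matrix (Fin n) (Fin n) F) (g : A →ₐ[K] Matrix (Fin n) (Fin n) L) (x : A)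
    (i : F →+* M) (j : L →+* M) (hij : i.comp (algebraMap K F) = j.comp (algebraMap K L)) :
    (f x).charpoly.map i = (g x).charpoly.map j := by
  apply eq_of_monic_pow ((f x).charpoly_monic.map i) ((g x).charpoly_monic.map j) hn.ne'
  rw [← Polynomial.map_pow, ← Polynomial.map_pow, charpoly_pow hn hA, charpoly_pow hn hA,
    Polynomial.map_map, Polynomial.map_map, hij]

/-- The reduced norms computed in two splitting fields agree. -/
theorem det_compare_gen (hn : 0 < n) (hA : finrank K A = n ^ 2)
    (f : A →ₐ[K] Matrix (Fin n) (Fin n) F) (g : A →ₐ[K] Matrix (Fin n) (Fin n) L) (x : A)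
    (i : F →+* M) (j : L →+* M) (hij : i.comp (algebraMap K F) = j.comp (algebraMap K L)) :
    i (f x).det = j (g x).det := by
  have heq := charpoly_compare hn hA f g x i j hij
  have h0 := congrArg (fun P => Polynomial.coeff P 0) heq
  simp only [Polynomial.coeff_map] at h0
  rw [Matrix.det_eq_sign_charpoly_coeff, Matrix.det_eq_sign_charpoly_coeff, map_mul, map_mul, h0]
  simp

theorem exists_common (K : Type u) (F : Type v) (L : Type w) [Field K] [Field F] [Algebra K F]
    [Field L] [Algebra K L] :
    ∃ (M : Type (max v w)) (_ : Field M) (i : F →+* M) (j : L →+* M),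
      i.comp (algebraMap K F) = j.comp (algebraMap K L) := by
  have : Nontrivial (F ⊗[K] L) := nontrivial_tensor
  obtain ⟨m, hm⟩ := Ideal.exists_maximal (F ⊗[K] L)
  let _ : Field ((F ⊗[K] L) ⧸ m) := Ideal.Quotient.field m
  refine ⟨(F ⊗[K] L) ⧸ m, inferInstance,
    (Ideal.Quotient.mk m).comp (Algebra.TensorProduct.includeLeftRingHom),
    (Ideal.Quotient.mk m).comp (Algebra.TensorProduct.includeRight : L →ₐ[K] F ⊗[K] L).toRingHom, ?_⟩
  ext x
  simp only [RingHom.comp_apply, Algebra.TensorProduct.includeLeftRingHom_apply,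
    AlgHom.toRingHom_eq_coe, RingHom.coe_coe, Algebra.TensorProduct.includeRight_apply]
  congr 1
  rw [Algebra.algebraMap_eq_smul_one, Algebra.algebraMap_eq_smul_one, TensorProduct.smul_tmul]

/-- The reduced norms computed in two splitting fields agree. -/
theorem det_compare (hn : 0 < n) (hA : finrank K A = n ^ 2)
    (f : A →ₐ[K] Matrix (Fin n) (Fin n) F) (g : A →ₐ[K] Matrix (Fin n) (Fin n) L) (x : A)
    {ν : K} (h : (f x).det = algebraMap K F ν) : (g x).det = algebraMap K L ν := by
  obtain ⟨M, _, i, j, hij⟩ := exists_common K F L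
  have h1 := det_compare_gen hn hA f g x i j hij
  rw [h] at h1
  exact (j.injective (((RingHom.congr_fun hij ν).symm.trans h1))).symm

theorem charpoly_compare' (hn : 0 < n) (hA : finrank K A = n ^ 2)
    (f : A →ₐ[K] Matrix (Fin n) (Fin n) F) (g : A →ₐ[K] Matrix (Fin n) (Fin n) L) (x : A)
    {P : K[X]} (h : (f x).charpoly = P.map (algebraMap K F)) :
    (g x).charpoly = P.map (algebraMap K L) := by
  obtain ⟨M, _, i, j, hij⟩ := exists_common K F L
  have h1 := charpoly_compare hn hA f g x i j hij
  rw [h, Polynomial.map_map, hij, ← Polynomial.map_map] at h1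
  exact (Polynomial.map_injective j j.injective h1).symm

/-- The reduced characteristic polynomial has coefficients in the centre. -/
theorem exists_charpoly (hn : 0 < n) (hA : finrank K A = n ^ 2)
    (f : A →ₐ[K] Matrix (Fin n) (Fin n) F) (x : A) :
    ∃ P : K[X], P.Monic ∧ P.natDegree = n ∧ (f x).charpoly = P.map (algebraMap K F) := by
  obtain ⟨g⟩ := exists_split_sepClosed (K := K) (A := A) (E := SeparableClosure K) hA
  have hc : ∀ l, ∃ c : K, algebraMap K (SeparableClosure K) c = (g x).charpoly.coeff l := by
    intro l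
    refine (InfiniteGalois.mem_range_algebraMap_iff_fixed _).2 fun σ => ?_
    have h1 := charpoly_compare hn hA g (galTwist σ g) x (RingHom.id _) (RingHom.id _) rfl
    rw [Polynomial.map_id, Polynomial.map_id, charpoly_galTwist] at h1
    have h3 := congrArg (fun P => Polynomial.coeff P l) h1
    rw [Polynomial.coeff_map] at h3
    exact h3.symm
  choose c hc using hc
  obtain ⟨P, hP⟩ : ∃ P : K[X], P.map (algebraMap K (SeparableClosure K)) = (g x).charpoly := by
    have hl : (g x).charpoly ∈ Polynomial.lifts (algebraMap K (SeparableClosure K)) := by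
      rw [Polynomial.lifts_iff_coeff_lifts]
      intro l
      exact ⟨c l, hc l⟩
    obtain ⟨P, hP⟩ := (Polynomial.mem_lifts _).1 hl
    exact ⟨P, hP⟩
  have hinj : Function.Injective (algebraMap K (SeparableClosure K)) :=
    (algebraMap K (SeparableClosure K)).injective
  refine ⟨P, ?_, ?_, charpoly_compare' hn hA g f x hP.symm⟩
  · have h1 := (g x).charpoly_monic
    rw [← hP] at h1
    exact Polynomial.monic_of_injective hinj h1
  · have h1 := (g x).charpoly_natDegree_eq_dim
    rw [← hP, Polynomial.natDegree_map_eq_of_injective hinj, Fintype.card_fin] at h1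
    exact h1

/-- Reduced norms are in the centre. -/
theorem exists_nrd (hn : 0 < n) (hA : finrank K A = n ^ 2)
    (f : A →ₐ[K] Matrix (Fin n) (Fin n) F) (x : A) : ∃ ν : K, (f x).det = algebraMap K F ν := by
  obtain ⟨P, -, -, hP⟩ := exists_charpoly hn hA f x
  refine ⟨(-1) ^ n * P.coeff 0, ?_⟩
  rw [Matrix.det_eq_sign_charpoly_coeff, hP, Polynomial.coeff_map]
  simp

/-- Reduced traces are in the centre. -/
theorem exists_trd (hn : 0 < n) (hA : finrank K A = n ^ 2)
    (f : A →ₐ[K] Matrix (Fin n) (Fin n) F) (x : A) : ∃ ν : K, (f x).trace = algebraMap K F ν := by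
  obtain ⟨P, -, -, hP⟩ := exists_charpoly hn hA f x
  have : Nonempty (Fin n) := ⟨⟨0, hn⟩⟩
  refine ⟨-P.coeff (n - 1), ?_⟩
  rw [Matrix.trace_eq_neg_charpoly_coeff, hP, Polynomial.coeff_map]
  simp

end basic

section star

/-- The field `Ω` with the structure of algebra twisted by the involution. -/
def TwS (_K Ω : Type*) : Type _ := Ω

instance {K Ω : Type*} [Field Ω] : Field (TwS K Ω) := inferInstanceAs (Field Ω)

noncomputable instance {K Ω : Type*} [Field K] [StarRing K] [Field Ω] [Algebra K Ω] :
    Algebra K (TwS K Ω) :=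
  (RingHom.comp (algebraMap K Ω) (starRingEnd K) : K →+* Ω).toAlgebra

theorem twS_algebraMap {K Ω : Type*} [Field K] [StarRing K] [Field Ω] [Algebra K Ω] (c : K) :
    algebraMap K (TwS K Ω) c = algebraMap K Ω (star c) := rfl

variable {K A Ω : Type*} [Field K] [StarRing K] [Ring A] [StarRing A] [Algebra K A]
  [FiniteDimensional K A] [Algebra.IsCentral K A] [IsSimpleRing A] [Field Ω] [Algebra K Ω] {n : ℕ}

/-- The splitting twisted by the involution. -/
noncomputable def starSplit (hss : ∀ c : K, star (algebraMap K A c) = algebraMap K A (star c))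
    (f : A →ₐ[K] Matrix (Fin n) (Fin n) Ω) : A →ₐ[K] Matrix (Fin n) (Fin n) (TwS K Ω) :=
  { toFun := fun y => (f (star y)).transpose
    map_one' := by rw [star_one, map_one, Matrix.transpose_one]; rfl
    map_mul' := fun y z => by rw [star_mul, map_mul, Matrix.transpose_mul]; rfl
    map_zero' := by rw [star_zero, map_zero, Matrix.transpose_zero]; rfl
    map_add' := fun y z => by rw [star_add, map_add, Matrix.transpose_add]; rfl
    commutes' := fun c => by
      change (f (star (algebraMap K A c))).transpose = _
      rw [hss, AlgHom.commutes]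
      change (Matrix.scalar (Fin n) (algebraMap K Ω (star c))).transpose = _
      rw [Matrix.scalar_apply, Matrix.diagonal_transpose]
      rfl }

/-- The reduced norm of `star x` is the conjugate of the reduced norm of `x`. -/
theorem nrd_star (hn : 0 < n) (hA : finrank K A = n ^ 2)
    (hss : ∀ c : K, star (algebraMap K A c) = algebraMap K A (star c))
    (f : A →ₐ[K] Matrix (Fin n) (Fin n) Ω) (x : A) {ν : K}
    (hν : (f x).det = algebraMap K Ω ν) : (f (star x)).det = algebraMap K Ω (star ν) := by
  have h1 := det_compare hn hA f (starSplit hss f) x hν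
  rw [twS_algebraMap] at h1
  rw [← h1]
  exact (Matrix.det_transpose (f (star x))).symm

/-- The reduced norm of a symmetric element is symmetric. -/
theorem star_nrd (hn : 0 < n) (hA : finrank K A = n ^ 2)
    (hss : ∀ c : K, star (algebraMap K A c) = algebraMap K A (star c))
    (f : A →ₐ[K] Matrix (Fin n) (Fin n) Ω) {x : A} (hx : star x = x) {ν : K}
    (hν : (f x).det = algebraMap K Ω ν) : star ν = ν := by
  have h1 := nrd_star hn hA hss f x hν
  rw [hx, hν] at h1
  exact ((algebraMap K Ω).injective h1).symm

end star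

end Vale.Agent.P011.H268
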