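import Vale.Agent.P011.H268.LangC2Cor
import Vale.Agent.P011.H268.Nrd
import Mathlib.Tactic.NoncommRing

/-!
# Reduced norms over global function fields

`D` is a central division algebra of degree `n` over a finite extension `K` of the field of
fractions of `F[X]`, `F` a finite field, with a splitting `f : D →ₐ[K] Matrix (Fin n) (Fin n) Ω`.

* `FF.nrd_surjective`: `Nrd : D → K` is onto;
* `FF.nrd_unitary_surjective`: for an involution of the second kind, `Nrd : U(D, *) → K¹` is onto;
* `FF.exists_hermitian_isotropic`: a diagonal hermitian form in at least three variables over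
  `(D, *)` is isotropic.
-/

open Module

namespace Vale.Agent.P011.H268.FF

section

variable {D Ω : Type*} [DivisionRing D] [Field Ω] {n : ℕ}

/-- The reduced norm is onto. -/
theorem nrd_surjective (F : Type*) [Field F] [Finite F] (K₀ : Type*) [Field K₀]
    [Algebra (Polynomial F) K₀] [IsFractionRing (Polynomial F) K₀]
    {K : Type*} [Field K] [Algebra K₀ K] [FiniteDimensional K₀ K] [Algebra K D]
    [FiniteDimensional K D] [Algebra.IsCentral K D] [Algebra K Ω]
    (hdim : finrank K D = n ^ 2) (f : D →ₐ[K] Matrix (Fin n) (Fin n) Ω) (a : K) :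
    ∃ x : D, (f x).det = algebraMap K Ω a := by
  have hn : 0 < n := by
    rcases Nat.eq_zero_or_pos n with rfl | h
    · have := finrank_pos (R := K) (M := D)
      omega
    · exact h
  exact exists_det_eq F K₀ hdim f (exists_nrd hn hdim f) a

/-- `Nrd : U(D, *) → K¹` is onto. -/
theorem nrd_unitary_surjective (F : Type*) [Field F] [Finite F] (K₀ : Type*) [Field K₀]
    [Algebra (Polynomial F) K₀] [IsFractionRing (Polynomial F) K₀]
    {k K : Type*} [Field k] [Algebra K₀ k] [FiniteDimensional K₀ k] [Field K] [StarRing K]
    [Algebra k K] (hfix : ∀ x : K, star x = x ↔ x ∈ Set.range (algebraMap k K))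
    (hne : ∃ x : K, star x ≠ x) [StarRing D] [Algebra K D] [FiniteDimensional K D]
    [Algebra.IsCentral K D] [Algebra K Ω]
    (hstar : ∀ c : K, star (algebraMap K D c) = algebraMap K D (star c))
    (hdim : finrank K D = n ^ 2) (f : D →ₐ[K] Matrix (Fin n) (Fin n) Ω)
    {z : K} (hz : z * star z = 1) :
    ∃ x : D, x * star x = 1 ∧ star x * x = 1 ∧ (f x).det = algebraMap K Ω z := by
  have hn : 0 < n := by
    rcases Nat.eq_zero_or_pos n with rfl | h
    · have := finrank_pos (R := K) (M := D)
      omega
    · exact h
  obtain ⟨θ, hθ⟩ := hne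
  exact exists_unitary_det_eq F K₀ hfix hθ hstar hdim f (exists_nrd hn hdim f)
    (fun x a h => nrd_star hn hdim hstar f x h) hz

end

section herm

variable {k A : Type*} [Field k] [Ring A] [Algebra k A] [StarRing A]

/-- The symmetric elements as a subspace. -/
def symS (k A : Type*) [Field k] [Ring A] [Algebra k A] [StarRing A]
    (hk : ∀ c : k, star (algebraMap k A c) = algebraMap k A c) : Submodule k A where
  carrier := {x | star x = x}
  add_mem' := fun {x y} hx hy => by
    simp only [Set.mem_ofPred_eq] at *
    rw [star_add, hx, hy]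
  zero_mem' := by simp
  smul_mem' := fun c x hx => by
    simp only [Set.mem_ofPred_eq] at *
    rw [Algebra.smul_def, star_mul, hk, hx, Algebra.commutes]

theorem mem_symS (hk : ∀ c : k, star (algebraMap k A c) = algebraMap k A c) (x : A) :
    x ∈ symS k A hk ↔ star x = x := Iff.rfl

/-- The diagonal hermitian form as a quadratic map. -/
def hermQ (hk : ∀ c : k, star (algebraMap k A c) = algebraMap k A c) {m : ℕ} (a : Fin m → A)
    (ha : ∀ i, star (a i) = a i) : QuadraticMap k (Fin m → A) (symS k A hk) where
  toFun := fun x => ⟨∑ i, star (x i) * a i * x i, by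
    rw [mem_symS, star_sum]
    refine Finset.sum_congr rfl fun i _ => ?_
    rw [star_mul, star_mul, star_star, ha, mul_assoc]⟩
  toFun_smul := fun c x => by
    apply Subtype.ext
    change ∑ i, star ((c • x) i) * a i * (c • x) i = (c * c) • ∑ i, star (x i) * a i * x i
    rw [Finset.smul_sum]
    refine Finset.sum_congr rfl fun i _ => ?_
    have h1 : star ((c • x) i) = c • star (x i) := by
      rw [Pi.smul_apply, Algebra.smul_def, star_mul, hk, ← Algebra.commutes, Algebra.smul_def]
    rw [h1, Pi.smul_apply, smul_mul_assoc, smul_mul_assoc, mul_smul_comm, smul_smul]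
  exists_companion' := by
    refine ⟨LinearMap.mk₂ k (fun x y => ⟨∑ i, (star (x i) * a i * y i + star (y i) * a i * x i), by
      rw [mem_symS, star_sum]
      refine Finset.sum_congr rfl fun i _ => ?_
      simp only [star_add, star_mul, star_star, ha, mul_assoc]
      rw [add_comm]⟩) ?_ ?_ ?_ ?_, ?_⟩
    · intro x y z
      apply Subtype.ext
      change ∑ i, (star ((x + y) i) * a i * z i + star (z i) * a i * (x + y) i)
        = ∑ i, (star (x i) * a i * z i + star (z i) * a i * x i)
          + ∑ i, (star (y i) * a i * z i + star (z i) * a i * y i)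
      rw [← Finset.sum_add_distrib]
      refine Finset.sum_congr rfl fun i _ => ?_
      simp only [Pi.add_apply, star_add]
      noncomm_ring
    · intro c x y
      apply Subtype.ext
      change ∑ i, (star ((c • x) i) * a i * y i + star (y i) * a i * (c • x) i)
        = c • ∑ i, (star (x i) * a i * y i + star (y i) * a i * x i)
      rw [Finset.smul_sum]
      refine Finset.sum_congr rfl fun i _ => ?_
      have h1 : star ((c • x) i) = c • star (x i) := by
        rw [Pi.smul_apply, Algebra.smul_def, star_mul, hk, ← Algebra.commutes, Algebra.smul_def]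
      rw [h1, Pi.smul_apply, smul_add, smul_mul_assoc, smul_mul_assoc, mul_smul_comm]
    · intro x y z
      apply Subtype.ext
      change ∑ i, (star (x i) * a i * (y + z) i + star ((y + z) i) * a i * x i)
        = ∑ i, (star (x i) * a i * y i + star (y i) * a i * x i)
          + ∑ i, (star (x i) * a i * z i + star (z i) * a i * x i)
      rw [← Finset.sum_add_distrib]
      refine Finset.sum_congr rfl fun i _ => ?_
      simp only [Pi.add_apply, star_add]
      noncomm_ring
    · intro c x y
      apply Subtype.ext
      change ∑ i, (star (x i) * a i * (c • y) i + star ((c • y) i) * a i * x i)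
        = c • ∑ i, (star (x i) * a i * y i + star (y i) * a i * x i)
      rw [Finset.smul_sum]
      refine Finset.sum_congr rfl fun i _ => ?_
      have h1 : star ((c • y) i) = c • star (y i) := by
        rw [Pi.smul_apply, Algebra.smul_def, star_mul, hk, ← Algebra.commutes, Algebra.smul_def]
      rw [h1, Pi.smul_apply, smul_add, smul_mul_assoc, smul_mul_assoc, mul_smul_comm]
    · intro x y
      apply Subtype.ext
      change ∑ i, star ((x + y) i) * a i * (x + y) i
        = ∑ i, star (x i) * a i * x i + ∑ i, star (y i) * a i * y i
          + ∑ i, (star (x i) * a i * y i + star (y i) * a i * x i)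
      rw [← Finset.sum_add_distrib, ← Finset.sum_add_distrib]
      refine Finset.sum_congr rfl fun i _ => ?_
      simp only [Pi.add_apply, star_add]
      noncomm_ring

/-- Diagonal hermitian forms in many variables are isotropic: if `4 dim Sym < m dim A`. -/
theorem exists_hermitian_isotropic (F : Type*) [Field F] [Finite F] (K₀ : Type*) [Field K₀]
    [Algebra (Polynomial F) K₀] [IsFractionRing (Polynomial F) K₀] [Algebra K₀ k]
    [FiniteDimensional K₀ k] [FiniteDimensional k A]
    (hk : ∀ c : k, star (algebraMap k A c) = algebraMap k A c) {m : ℕ}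
    (hdim : 4 * finrank k (symS k A hk) < m * finrank k A) (a : Fin m → A)
    (ha : ∀ i, star (a i) = a i) :
    ∃ x : Fin m → A, x ≠ 0 ∧ ∑ i, star (x i) * a i * x i = 0 := by
  obtain ⟨x, hx, hx0⟩ := exists_isotropic_quadraticMap F K₀ (hermQ hk a ha) (by
    rw [finrank_pi_fintype]
    simpa using hdim)
  exact ⟨x, hx, congrArg Subtype.val hx0⟩

end herm

end Vale.Agent.P011.H268.FF
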