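import Vale.Agent.P011.H268.Nrd
import Mathlib.FieldTheory.Normal.Closure
import Mathlib.FieldTheory.IsSepClosed
import Mathlib.FieldTheory.Galois.Basic

/-!
# Splitting over a finite Galois extension, every characteristic
-/

open Module TensorProduct Polynomial

namespace Vale.Agent.P011.H268

universe u v w

/-- A finite dimensional central simple algebra over a finite separable extension `K` of `k`
splits over a finite Galois extension of `k`. -/
theorem exists_galois_split {k : Type w} {K : Type u} {A : Type v} [Field k] [Field K] [Algebra k K]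
    [FiniteDimensional k K] [Algebra.IsSeparable k K] [Ring A] [Algebra K A]
    [FiniteDimensional K A] [Algebra.IsCentral K A] [IsSimpleRing A]
    {d : ℕ} (hD : finrank K A = d ^ 2) :
    ∃ (N : Type u) (_ : Field N) (_ : Algebra k N) (_ : Algebra K N) (_ : IsScalarTower k K N)
      (_ : FiniteDimensional k N) (_ : IsGalois k N),
      Nonempty (A →ₐ[K] Matrix (Fin d) (Fin d) N) := by
  let Ω := SeparableClosure K
  obtain ⟨g0⟩ := exists_split_sepClosed (K := K) (A := A) (E := Ω) hD
  have hsep : Algebra.IsSeparable k Ω := Algebra.IsSeparable.trans k K Ω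
  have hcl : IsSepClosure k Ω := ⟨inferInstance, hsep⟩
  have hgalΩ : IsGalois k Ω := inferInstance
  let β := finBasis K A
  let γ := finBasis k K
  let S : Set Ω := Set.range (fun t : Fin (finrank K A) × Fin d × Fin d => g0 (β t.1) t.2.1 t.2.2) ∪
    Set.range (fun i => algebraMap K Ω (γ i))
  have hSfin : S.Finite := (Set.finite_range _).union (Set.finite_range _)
  have : Finite S := hSfin
  have hfd0 : FiniteDimensional k (IntermediateField.adjoin k S) :=
    IntermediateField.finiteDimensional_adjoin
      fun x _ => (Algebra.IsAlgebraic.isAlgebraic (R := k) x).isIntegral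
  let N := IntermediateField.normalClosure k (IntermediateField.adjoin k S) Ω
  have hS : ∀ x ∈ S, x ∈ N := fun x hx =>
    IntermediateField.le_normalClosure _ (IntermediateField.subset_adjoin k S hx)
  have hK : ∀ x : K, algebraMap K Ω x ∈ N := by
    intro x
    rw [← γ.sum_repr x, map_sum]
    refine sum_mem fun i _ => ?_
    rw [Algebra.smul_def, map_mul, ← IsScalarTower.algebraMap_apply]
    exact mul_mem (N.algebraMap_mem _) (hS _ (Or.inr ⟨i, rfl⟩))
  let algK : Algebra K N := ((algebraMap K Ω).codRestrict N hK).toAlgebra
  have hKN : ∀ x : K, ((algebraMap K N x : N) : Ω) = algebraMap K Ω x := fun x => rfl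
  have htow : IsScalarTower k K N := IsScalarTower.of_algebraMap_eq fun x => by
    apply Subtype.ext
    rw [hKN, ← IsScalarTower.algebraMap_apply]
    rfl
  have hnormal : Normal k N := inferInstance
  have hsepN : Algebra.IsSeparable k N := inferInstance
  have hgal : IsGalois k N := ⟨⟩
  have hg : ∀ x i j, g0 x i j ∈ N := by
    intro x i j
    rw [← β.sum_repr x, map_sum, Matrix.sum_apply]
    refine sum_mem fun t _ => ?_
    rw [map_smul, Matrix.smul_apply, Algebra.smul_def]
    exact mul_mem (hK _) (hS _ (Or.inl ⟨(t, i, j), rfl⟩))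
  refine ⟨N, inferInstance, inferInstance, algK, htow, inferInstance, hgal, ⟨?_⟩⟩
  refine
    { toFun := fun x => Matrix.of fun i j => ⟨g0 x i j, hg x i j⟩
      map_one' := ?_, map_mul' := ?_, map_zero' := ?_, map_add' := ?_, commutes' := ?_ }
  · refine Matrix.ext fun i j => Subtype.ext ?_
    rw [Matrix.of_apply]
    change g0 1 i j = _
    rw [map_one, Matrix.one_apply, Matrix.one_apply]
    split_ifs <;> rfl
  · intro x y
    refine Matrix.ext fun i j => Subtype.ext ?_
    rw [Matrix.of_apply, Matrix.mul_apply]
    change g0 (x * y) i j = _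
    rw [map_mul, Matrix.mul_apply]
    rw [AddSubmonoidClass.coe_finsetSum]
    rfl
  · refine Matrix.ext fun i j => Subtype.ext ?_
    rw [Matrix.of_apply]
    change g0 0 i j = _
    rw [map_zero]; rfl
  · intro x y
    refine Matrix.ext fun i j => Subtype.ext ?_
    change g0 (x + y) i j = g0 x i j + g0 y i j
    rw [map_add]; rfl
  · intro c
    refine Matrix.ext fun i j => Subtype.ext ?_
    change g0 (algebraMap K A c) i j = _
    rw [AlgHom.commutes, Matrix.algebraMap_matrix_apply, Matrix.algebraMap_matrix_apply]
    split_ifs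
    · rw [hKN]
    · rfl

/-- Version over the centre. -/
theorem exists_galois_split' {K : Type u} {A : Type v} [Field K] [Ring A] [Algebra K A]
    [FiniteDimensional K A] [Algebra.IsCentral K A] [IsSimpleRing A]
    {d : ℕ} (hD : finrank K A = d ^ 2) :
    ∃ (N : Type u) (_ : Field N) (_ : Algebra K N) (_ : FiniteDimensional K N) (_ : IsGalois K N),
      Nonempty (A →ₐ[K] Matrix (Fin d) (Fin d) N) := by
  obtain ⟨N, i1, i2, i3, i4, i5, i6, g⟩ := exists_galois_split (k := K) hD
  have h : i2 = i3 := by
    apply Algebra.algebra_ext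
    intro r
    exact (@IsScalarTower.algebraMap_apply K K N _ _ _ _ i3 i2 i4 r)
  subst h
  exact ⟨N, i1, i2, i5, i6, g⟩

end Vale.Agent.P011.H268
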