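import Mathlib.FieldTheory.ChevalleyWarning
import Mathlib.RingTheory.MvPolynomial.Homogeneous
import Mathlib.RingTheory.Localization.Integer
import Mathlib.RingTheory.Localization.FractionRing
import Mathlib.LinearAlgebra.FiniteDimensional.Basic
import Mathlib.LinearAlgebra.QuadraticForm.Basis

/-!
# Global function fields are `C₂` (Lang), systems of forms

If `K` is a finite extension of the field of fractions of `F[X]`, `F` a finite field, then any
`r` forms of degree `d` in more than `r * d ^ 2` variables over `K` have a common nontrivial zero.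
(Chevalley-Warning over `F`, comparison of coefficients over `F[X]`, restriction of scalars.)
-/

open MvPolynomial

namespace Vale.Agent.P011.H268

section CoeffMap

variable {R A σ : Type*} [CommRing R] [CommRing A] [Algebra R A]

/-- Apply an `R`-linear map `φ : A → R` to all coefficients. -/
noncomputable def coeffMap (φ : A →ₗ[R] R) (P : MvPolynomial σ A) : MvPolynomial σ R :=
  ∑ u ∈ P.support, monomial u (φ (P.coeff u))

theorem coeffMap_isHomogeneous (φ : A →ₗ[R] R) {P : MvPolynomial σ A} {d : ℕ}
    (hP : P.IsHomogeneous d) : (coeffMap φ P).IsHomogeneous d := by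
  classical
  refine IsHomogeneous.sum _ _ _ fun u hu => ?_
  refine isHomogeneous_monomial _ ?_
  by_contra h
  exact (mem_support_iff.1 hu) (hP.coeff_eq_zero h)

theorem eval_coeffMap (φ : A →ₗ[R] R) (P : MvPolynomial σ A) (y : σ → R) :
    eval y (coeffMap φ P) = φ (eval (fun i => algebraMap R A (y i)) P) := by
  classical
  rw [coeffMap, map_sum, eval_eq, map_sum]
  refine Finset.sum_congr rfl fun u _ => ?_
  rw [eval_monomial]
  have h1 : (∏ i ∈ u.support, (algebraMap R A (y i)) ^ u i)
      = algebraMap R A (∏ i ∈ u.support, y i ^ u i) := by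
    rw [map_prod]; simp
  rw [h1, mul_comm (coeff u P), ← Algebra.smul_def, map_smul, smul_eq_mul, mul_comm]
  rfl

end CoeffMap

section FiniteField

variable {F : Type*} [Field F] [Finite F] {κ ι : Type*} [Fintype κ] [Fintype ι]

/-- Chevalley's theorem for systems with the trivial zero. -/
theorem exists_zero_finite (f : ι → MvPolynomial κ F) (h0 : ∀ i, eval 0 (f i) = 0)
    (hd : (∑ i, (f i).totalDegree) < Fintype.card κ) :
    ∃ x : κ → F, x ≠ 0 ∧ ∀ i, eval x (f i) = 0 := by
  classical
  have : Fintype F := Fintype.ofFinite F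
  obtain ⟨p, hp⟩ := CharP.exists F
  have hpp : Fact p.Prime := ⟨(CharP.char_is_prime_or_zero F p).resolve_right
    (CharP.char_ne_zero_of_finite F p)⟩
  have hdvd := char_dvd_card_solutions_of_fintype_sum_lt p hd
  have hlt : 1 < Fintype.card { x : κ → F // ∀ i, eval x (f i) = 0 } := by
    refine lt_of_lt_of_le hpp.out.one_lt (Nat.le_of_dvd ?_ hdvd)
    exact Fintype.card_pos_iff.2 ⟨⟨0, h0⟩⟩
  obtain ⟨⟨x, hx⟩, hne⟩ := Fintype.exists_ne_of_one_lt_card hlt ⟨0, h0⟩
  refine ⟨x, fun h => hne ?_, hx⟩
  subst h
  rfl

end FiniteField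

section Poly

variable {F : Type*} [Field F] {κ : Type*} [Fintype κ]

/-- All coefficients (in the variable `T`) are homogeneous of degree `d`, `T`-degree `≤ m`. -/
def CoeffHom {τ : Type*} (P : Polynomial (MvPolynomial τ F)) (d m : ℕ) : Prop :=
  (∀ l, (P.coeff l).IsHomogeneous d) ∧ P.natDegree ≤ m

variable {τ : Type*}

theorem CoeffHom.mul {P Q : Polynomial (MvPolynomial τ F)} {d m e n : ℕ} (hP : CoeffHom P d m)
    (hQ : CoeffHom Q e n) : CoeffHom (P * Q) (d + e) (m + n) := by
  classical
  refine ⟨fun l => ?_, Polynomial.natDegree_mul_le_of_le hP.2 hQ.2⟩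
  rw [Polynomial.coeff_mul]
  exact IsHomogeneous.sum _ _ _ fun x _ => (hP.1 _).mul (hQ.1 _)

theorem CoeffHom.one : CoeffHom (1 : Polynomial (MvPolynomial τ F)) 0 0 := by
  classical
  refine ⟨fun l => ?_, by simp⟩
  rw [Polynomial.coeff_one]
  split_ifs
  · exact isHomogeneous_one _ _
  · exact isHomogeneous_zero _ _ _

theorem CoeffHom.pow {P : Polynomial (MvPolynomial τ F)} {d m : ℕ} (hP : CoeffHom P d m) (n : ℕ) :
    CoeffHom (P ^ n) (d * n) (m * n) := by
  induction n with
  | zero => simpa using CoeffHom.one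
  | succ n ih => rw [pow_succ, mul_add, mul_add, mul_one, mul_one]; exact ih.mul hP

theorem CoeffHom.prod {α : Type*} (s : Finset α) (P : α → Polynomial (MvPolynomial τ F))
    (d m : α → ℕ) (h : ∀ a ∈ s, CoeffHom (P a) (d a) (m a)) :
    CoeffHom (∏ a ∈ s, P a) (∑ a ∈ s, d a) (∑ a ∈ s, m a) := by
  classical
  induction s using Finset.induction_on with
  | empty => simpa using CoeffHom.one
  | insert a s ha ih =>
    rw [Finset.prod_insert ha, Finset.sum_insert ha, Finset.sum_insert ha]
    exact (h a (Finset.mem_insert_self _ _)).mul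
      (ih fun b hb => h b (Finset.mem_insert_of_mem hb))

theorem CoeffHom.sum {α : Type*} (s : Finset α) (P : α → Polynomial (MvPolynomial τ F))
    (d m : ℕ) (h : ∀ a ∈ s, CoeffHom (P a) d m) :
    CoeffHom (∑ a ∈ s, P a) d m := by
  classical
  refine ⟨fun l => ?_, Polynomial.natDegree_sum_le_of_forall_le _ _ fun a ha => (h a ha).2⟩
  rw [Polynomial.finsetSum_coeff]
  exact IsHomogeneous.sum _ _ _ fun a ha => (h a ha).1 l

theorem CoeffHom.mapC (p : Polynomial F) :
    CoeffHom (p.map (C : F →+* MvPolynomial τ F)) 0 p.natDegree := by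
  refine ⟨fun l => ?_, Polynomial.natDegree_map_le⟩
  rw [Polynomial.coeff_map]
  exact isHomogeneous_C _ _

/-- The generic vector with entries of degree `≤ M`. -/
noncomputable def genVec (κ : Type*) (F : Type*) [Field F] (M : ℕ) (j : κ) :
    Polynomial (MvPolynomial (κ × Fin (M + 1)) F) :=
  ∑ s : Fin (M + 1), Polynomial.monomial s.1 (X (j, s))

omit [Fintype κ] in
theorem genVec_coeffHom (M : ℕ) (j : κ) : CoeffHom (genVec κ F M j) 1 M := by
  classical
  refine CoeffHom.sum _ _ _ _ fun s _ => ⟨fun l => ?_, ?_⟩
  · rw [Polynomial.coeff_monomial]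
    split_ifs
    · exact isHomogeneous_X _ _
    · exact isHomogeneous_zero _ _ _
  · exact (Polynomial.natDegree_monomial_le _).trans (Nat.lt_succ_iff.1 s.2)

/-- The substitution of the generic vector in a polynomial. -/
noncomputable def genSub (M : ℕ) (f : MvPolynomial κ (Polynomial F)) :
    Polynomial (MvPolynomial (κ × Fin (M + 1)) F) :=
  eval₂ (Polynomial.mapRingHom (C : F →+* MvPolynomial (κ × Fin (M + 1)) F)) (genVec κ F M) f

theorem genSub_coeffHom (M : ℕ) (f : MvPolynomial κ (Polynomial F)) {d m : ℕ}
    (hf : f.IsHomogeneous d) (hm : ∀ u, (f.coeff u).natDegree ≤ m) :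
    CoeffHom (genSub M f) d (m + M * d) := by
  classical
  rw [genSub, eval₂_eq']
  refine CoeffHom.sum _ _ _ _ fun u hu => ?_
  have hdeg : u.degree = d := by
    by_contra h
    exact (mem_support_iff.1 hu) (hf.coeff_eq_zero h)
  have h1 : CoeffHom ((Polynomial.mapRingHom
      (C : F →+* MvPolynomial (κ × Fin (M + 1)) F)) (coeff u f)) 0 m := by
    have := CoeffHom.mapC (τ := κ × Fin (M + 1)) (coeff u f)
    exact ⟨this.1, this.2.trans (hm u)⟩
  have h2 : CoeffHom (∏ i, genVec κ F M i ^ u i) d (M * d) := by
    have := CoeffHom.prod Finset.univ (fun i => genVec κ F M i ^ u i) (fun i => 1 * u i)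
      (fun i => M * u i) fun i _ => (genVec_coeffHom M i).pow _
    have hs : ∑ i, u i = d := by
      rw [← hdeg, Finsupp.degree_eq_sum]
    simpa [← Finset.mul_sum, hs] using this
  simpa using h1.mul h2

omit [Fintype κ] in
theorem eval_genSub (M : ℕ) (f : MvPolynomial κ (Polynomial F)) (y : κ × Fin (M + 1) → F) (l : ℕ) :
    eval y ((genSub M f).coeff l)
      = (eval (fun j => ∑ s : Fin (M + 1), Polynomial.monomial s.1 (y (j, s))) f).coeff l := by
  classical
  have h : (Polynomial.mapRingHom (eval y)) (genSub M f)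
      = eval (fun j => ∑ s : Fin (M + 1), Polynomial.monomial s.1 (y (j, s))) f := by
    rw [genSub, hom_eval₂]
    have h1 : (Polynomial.mapRingHom (eval y)).comp
        (Polynomial.mapRingHom (C : F →+* MvPolynomial (κ × Fin (M + 1)) F))
        = RingHom.id (Polynomial F) := by
      refine RingHom.ext fun p => ?_
      simp only [RingHom.comp_apply, Polynomial.coe_mapRingHom, Polynomial.map_map,
        RingHom.id_apply]
      have : (eval y).comp (C : F →+* MvPolynomial (κ × Fin (M + 1)) F) = RingHom.id F := by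
        ext a; simp
      rw [this, Polynomial.map_id]
    rw [h1]
    have h2 : (fun j => (Polynomial.mapRingHom (eval y)) (genVec κ F M j))
        = fun j => ∑ s : Fin (M + 1), Polynomial.monomial s.1 (y (j, s)) := by
      funext j
      simp [genVec, Polynomial.map_monomial]
    rw [h2]
    rfl
  rw [← h, Polynomial.coe_mapRingHom, Polynomial.coeff_map]

variable [Finite F] {ι : Type*} [Fintype ι]

/-- Systems of forms over `F[X]`. -/
theorem exists_zero_poly (f : ι → MvPolynomial κ (Polynomial F)) {d : ℕ} (hd : d ≠ 0)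
    (hf : ∀ i, (f i).IsHomogeneous d) (hcard : Fintype.card ι * d ^ 2 < Fintype.card κ) :
    ∃ x : κ → Polynomial F, x ≠ 0 ∧ ∀ i, eval x (f i) = 0 := by
  classical
  -- a bound for the degrees of all coefficients
  obtain ⟨m, hm⟩ : ∃ m : ℕ, ∀ i u, ((f i).coeff u).natDegree ≤ m := by
    refine ⟨∑ i, ∑ u ∈ (f i).support, ((f i).coeff u).natDegree, fun i u => ?_⟩
    by_cases hu : u ∈ (f i).support
    · exact (Finset.single_le_sum (f := fun u => ((f i).coeff u).natDegree)
        (fun _ _ => Nat.zero_le _) hu).trans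
        (Finset.single_le_sum (f := fun i => ∑ u ∈ (f i).support, ((f i).coeff u).natDegree)
          (fun _ _ => Nat.zero_le _) (Finset.mem_univ i))
    · rw [notMem_support_iff.1 hu]; simp
  set r := Fintype.card ι with hr
  set M := r * d * (m + 1) with hM
  set L := m + M * d + 1 with hL
  -- the polynomials over the finite field
  let g : ι × Fin L → MvPolynomial (κ × Fin (M + 1)) F := fun a => (genSub M (f a.1)).coeff a.2.1
  have hg : ∀ a, (g a).IsHomogeneous d := fun a => (genSub_coeffHom M (f a.1) (hf a.1) (hm a.1)).1 _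
  have h0 : ∀ a, eval 0 (g a) = 0 := by
    intro a
    rw [eval_eq]
    refine Finset.sum_eq_zero fun u hu => ?_
    have hdeg : u.degree = d := by
      by_contra h
      exact (mem_support_iff.1 hu) ((hg a).coeff_eq_zero h)
    have hne : u ≠ 0 := by
      rintro rfl
      exact hd (by rw [← hdeg]; simp)
    obtain ⟨i, hi⟩ := Finsupp.ne_iff.1 hne
    have hmem : i ∈ u.support := Finsupp.mem_support_iff.2 hi
    have hz : (0 : κ × Fin (M + 1) → F) i ^ u i = 0 := by
      rw [Pi.zero_apply]
      exact zero_pow (Finsupp.mem_support_iff.1 hmem)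
    rw [Finset.prod_eq_zero hmem hz, mul_zero]
  have hsum : (∑ a, (g a).totalDegree) < Fintype.card (κ × Fin (M + 1)) := by
    calc (∑ a, (g a).totalDegree) ≤ ∑ _a : ι × Fin L, d :=
          Finset.sum_le_sum fun a _ => (hg a).totalDegree_le
      _ = (r * L) * d := by simp [hr]
      _ < (r * d ^ 2 + 1) * (M + 1) := by
          rw [hL]
          nlinarith [hM, Nat.zero_le (r * d ^ 2)]
      _ ≤ Fintype.card κ * (M + 1) := Nat.mul_le_mul_right _ hcard
      _ = Fintype.card (κ × Fin (M + 1)) := by simp
  obtain ⟨y, hy, hyz⟩ := exists_zero_finite g h0 hsum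
  refine ⟨fun j => ∑ s : Fin (M + 1), Polynomial.monomial s.1 (y (j, s)), fun h => hy ?_,
    fun i => ?_⟩
  · funext a
    have h1 := congrFun h a.1
    have h2 := congrArg (fun p => Polynomial.coeff p a.2.1) h1
    simp only [Polynomial.finsetSum_coeff, Polynomial.coeff_monomial, Pi.zero_apply,
      Polynomial.coeff_zero] at h2
    rw [Finset.sum_eq_single a.2] at h2
    · simpa using h2
    · intro b _ hb
      rw [if_neg fun hh => hb (Fin.ext hh)]
    · intro hh
      exact absurd (Finset.mem_univ _) hh
  · ext l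
    rw [← eval_genSub, Polynomial.coeff_zero]
    by_cases hl : l < L
    · exact hyz (i, ⟨l, hl⟩)
    · have := (genSub_coeffHom M (f i) (hf i) (hm i)).2
      rw [Polynomial.coeff_eq_zero_of_natDegree_lt (by omega), map_zero]

end Poly

section Frac

variable {κ ι : Type*} [Fintype κ] [Fintype ι]

/-- Systems of forms over the field of fractions of `F[X]`. -/
theorem exists_zero_frac (F : Type*) [Field F] [Finite F] {K₀ : Type*} [Field K₀]
    [Algebra (Polynomial F) K₀] [IsFractionRing (Polynomial F) K₀] (f : ι → MvPolynomial κ K₀) {d : ℕ} (hd : d ≠ 0)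
    (hf : ∀ i, (f i).IsHomogeneous d) (hcard : Fintype.card ι * d ^ 2 < Fintype.card κ) :
    ∃ x : κ → K₀, x ≠ 0 ∧ ∀ i, eval x (f i) = 0 := by
  classical
  -- a common denominator
  obtain ⟨b, hb⟩ := IsLocalization.exist_integer_multiples_of_finset
    (nonZeroDivisors (Polynomial F))
    (Finset.univ.biUnion fun i => (f i).support.image fun u => (f i).coeff u)
  have hb' : ∀ i u, ∃ a : Polynomial F, algebraMap (Polynomial F) K₀ a
      = (b : Polynomial F) • (f i).coeff u := by
    intro i u
    by_cases hu : u ∈ (f i).support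
    · exact hb _ (Finset.mem_biUnion.2 ⟨i, Finset.mem_univ _, Finset.mem_image_of_mem _ hu⟩)
    · exact ⟨0, by rw [notMem_support_iff.1 hu]; simp⟩
  choose a ha using hb'
  have ha0 : ∀ i u, (f i).coeff u = 0 → a i u = 0 := by
    intro i u h
    have := ha i u
    rw [h, smul_zero] at this
    exact (IsFractionRing.injective (Polynomial F) K₀) (by rw [this, map_zero])
  let g : ι → MvPolynomial κ (Polynomial F) := fun i => ∑ u ∈ (f i).support, monomial u (a i u)
  have hg : ∀ i, (g i).IsHomogeneous d := by
    intro i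
    refine IsHomogeneous.sum _ _ _ fun u hu => isHomogeneous_monomial _ ?_
    by_contra h
    exact (mem_support_iff.1 hu) ((hf i).coeff_eq_zero h)
  obtain ⟨x, hx, hxz⟩ := exists_zero_poly g hd hg hcard
  refine ⟨fun j => algebraMap _ K₀ (x j), fun h => hx ?_, fun i => ?_⟩
  · funext j
    have := congrFun h j
    exact (IsFractionRing.injective (Polynomial F) K₀) (by simpa using this)
  · have h1 := congrArg (algebraMap (Polynomial F) K₀) (hxz i)
    have h2 : algebraMap (Polynomial F) K₀ (eval x (g i))
        = (b : Polynomial F) • eval (fun j => algebraMap _ K₀ (x j)) (f i) := by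
      simp only [g]
      rw [map_sum, map_sum, eval_eq, Finset.smul_sum]
      refine Finset.sum_congr rfl fun u _ => ?_
      rw [eval_monomial, map_mul, ha, Finsupp.prod, map_prod, smul_mul_assoc]
      simp
    rw [h2, map_zero, Algebra.smul_def] at h1
    rcases mul_eq_zero.1 h1 with h3 | h3
    · exact absurd ((IsFractionRing.injective (Polynomial F) K₀) (by rw [h3, map_zero]))
        (nonZeroDivisors.ne_zero b.2)
    · exact h3

/-- **Lang**: systems of forms over a finite extension `K` of the field of fractions of `F[X]`,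
`F` a finite field: `r` forms of degree `d ≥ 1` in more than `r * d ^ 2` variables have a common
nontrivial zero. -/
theorem exists_zero_functionField (F : Type*) [Field F] [Finite F] (K₀ : Type*) [Field K₀]
    [Algebra (Polynomial F) K₀] [IsFractionRing (Polynomial F) K₀]
    {K : Type*} [Field K] [Algebra K₀ K] [FiniteDimensional K₀ K]
    (f : ι → MvPolynomial κ K) {d : ℕ} (hd : d ≠ 0)
    (hf : ∀ i, (f i).IsHomogeneous d) (hcard : Fintype.card ι * d ^ 2 < Fintype.card κ) :
    ∃ x : κ → K, x ≠ 0 ∧ ∀ i, eval x (f i) = 0 := by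
  classical
  set e := Module.finrank K₀ K with he
  have hepos : 0 < e := Module.finrank_pos
  let b := Module.finBasis K₀ K
  -- substitute `x_j = ∑ y_{j,s} b_s`
  let G : ι → MvPolynomial (κ × Fin e) K := fun i =>
    aeval (fun j => ∑ s : Fin e, C (b s) * X (j, s)) (f i)
  have hG : ∀ i, (G i).IsHomogeneous d := by
    intro i
    have := (hf i).aeval (n := 1) (fun j => ∑ s : Fin e, C (b s) * X (j, s)) fun j =>
      IsHomogeneous.sum _ _ _ fun s _ => isHomogeneous_C_mul_X _ _
    simpa using this
  let g : ι × Fin e → MvPolynomial (κ × Fin e) K₀ := fun a => coeffMap (b.coord a.2) (G a.1)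
  have hg : ∀ a, (g a).IsHomogeneous d := fun a => coeffMap_isHomogeneous _ (hG a.1)
  have hcard' : Fintype.card (ι × Fin e) * d ^ 2 < Fintype.card (κ × Fin e) := by
    simp only [Fintype.card_prod, Fintype.card_fin]
    nlinarith
  obtain ⟨y, hy, hyz⟩ := exists_zero_frac F g hd hg hcard'
  refine ⟨fun j => ∑ s, y (j, s) • b s, fun h => hy ?_, fun i => ?_⟩
  · funext a
    have h1 := congrFun h a.1
    have h2 := Fintype.linearIndependent_iff.1 b.linearIndependent (fun s => y (a.1, s)) h1 a.2
    simpa using h2
  · have h1 : eval (fun a => algebraMap K₀ K (y a)) (G i)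
        = eval (fun j => ∑ s, y (j, s) • b s) (f i) := by
      simp only [G]
      rw [aeval_def, algebraMap_eq, hom_eval₂]
      have : (eval fun a => algebraMap K₀ K (y a)).comp (C : K →+* MvPolynomial (κ × Fin e) K)
          = RingHom.id K := by
        ext a; simp
      rw [this]
      have h2 : (fun j => (eval fun a => algebraMap K₀ K (y a))
          (∑ s : Fin e, C (b s) * X (j, s))) = fun j => ∑ s, y (j, s) • b s := by
        funext j
        simp [Algebra.smul_def, mul_comm]
      rw [h2]
      rfl
    rw [← h1]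
    refine b.ext_elem fun s => ?_
    have := hyz (i, s)
    simp only [g] at this
    rw [eval_coeffMap] at this
    simpa using this

end Frac

end Vale.Agent.P011.H268
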