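import Vale.Agent.P011.H268.LangC2
import Mathlib.LinearAlgebra.Matrix.Charpoly.Coeff
import Mathlib.LinearAlgebra.Basis.VectorSpace
import Mathlib.Algebra.Star.Module
import Mathlib.LinearAlgebra.Dimension.DivisionRing

/-!
# Consequences of the `C₂` property of global function fields

* `exists_isotropic_quadraticMap`: a quadratic map `V → W` with `4 dim W < dim V` has a nontrivial
  zero;
* `exists_det_eq`: the reduced norm of a division algebra of dimension `n ^ 2` is onto;
* `exists_unitary_det_eq`: every element of norm one of the quadratic extension `K/k` is the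
  reduced norm of a unitary element of `(D, *)` (every characteristic).
-/

open MvPolynomial Module

namespace Vale.Agent.P011.H268

section Form

variable {K Ω D κ : Type*} [Field K] [Field Ω] [Algebra K Ω] [Ring D] [Algebra K D] {n : ℕ}

/-- A left inverse of the structure map. -/
theorem exists_section (K Ω : Type*) [Field K] [Field Ω] [Algebra K Ω] :
    ∃ π : Ω →ₗ[K] K, ∀ a, π (algebraMap K Ω a) = a := by
  obtain ⟨π, hπ⟩ := LinearMap.exists_leftInverse_of_injective (Algebra.linearMap K Ω)
    (LinearMap.ker_eq_bot.2 (algebraMap K Ω).injective)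
  exact ⟨π, fun a => by simpa using LinearMap.congr_fun hπ a⟩

omit [Ring D] [Algebra K D] in
theorem smul_matrix_eq (c : K) (A : Matrix (Fin n) (Fin n) Ω) : c • A = algebraMap K Ω c • A := by
  ext a b
  simp [Algebra.smul_def]

theorem det_smul_alg (f : D →ₐ[K] Matrix (Fin n) (Fin n) Ω) (c : K) (x : D) :
    (f (c • x)).det = algebraMap K Ω (c ^ n) * (f x).det := by
  rw [map_smul, smul_matrix_eq, Matrix.det_smul, Fintype.card_fin, map_pow]

/-- The determinant of a combination of matrices is a form. -/
theorem exists_detForm [Fintype κ] (f : D →ₐ[K] Matrix (Fin n) (Fin n) Ω) (v : κ → D) :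
    ∃ Q : MvPolynomial κ K, Q.IsHomogeneous n ∧ ∀ (y : κ → K) (a : K),
      (f (∑ j, y j • v j)).det = algebraMap K Ω a → eval y Q = a := by
  classical
  obtain ⟨π, hπ⟩ := exists_section K Ω
  let M : Matrix (Fin n) (Fin n) (MvPolynomial κ Ω) := Matrix.of fun a b =>
    ∑ j, C (f (v j) a b) * X j
  have hM : ∀ a b, (M a b).IsHomogeneous 1 := fun a b =>
    IsHomogeneous.sum _ _ _ fun j _ => isHomogeneous_C_mul_X _ _
  have hdet : M.det.IsHomogeneous n := by
    rw [Matrix.det_apply]
    refine IsHomogeneous.sum _ _ _ fun σ _ => ?_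
    have h1 : (∏ i, M (σ i) i).IsHomogeneous n := by
      have := IsHomogeneous.prod Finset.univ (fun i => M (σ i) i) (fun _ => 1) fun i _ => hM _ _
      simpa using this
    rcases Int.units_eq_one_or (Equiv.Perm.sign σ) with h | h
    · rw [h, one_smul]; exact h1
    · rw [h, Units.neg_smul, one_smul]; exact h1.neg
  refine ⟨coeffMap π M.det, coeffMap_isHomogeneous _ hdet, fun y a h => ?_⟩
  rw [eval_coeffMap]
  have h2 : eval (fun i => algebraMap K Ω (y i)) M.det = (f (∑ j, y j • v j)).det := by
    rw [RingHom.map_det]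
    congr 1
    ext a b
    rw [RingHom.mapMatrix_apply, Matrix.map_apply, map_sum, Matrix.sum_apply]
    simp only [M, Matrix.of_apply, map_sum, map_mul, eval_C, eval_X]
    refine Finset.sum_congr rfl fun j _ => ?_
    rw [map_smul, Matrix.smul_apply, Algebra.smul_def, mul_comm]
  rw [h2, h, hπ]

end Form

section Quad

variable {F : Type*} [Field F] [Finite F] {K₀ : Type*} [Field K₀] [Algebra (Polynomial F) K₀]
  [IsFractionRing (Polynomial F) K₀]

/-- Quadratic maps in many variables over a global function field have nontrivial zeros. -/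
theorem exists_isotropic_quadraticMap (F : Type*) [Field F] [Finite F] (K₀ : Type*) [Field K₀]
    [Algebra (Polynomial F) K₀] [IsFractionRing (Polynomial F) K₀]
    {K : Type*} [Field K] [Algebra K₀ K] [FiniteDimensional K₀ K]
    {V W : Type*} [AddCommGroup V] [Module K V] [FiniteDimensional K V] [AddCommGroup W]
    [Module K W] [FiniteDimensional K W] (Q : QuadraticMap K V W)
    (h : 4 * finrank K W < finrank K V) : ∃ v : V, v ≠ 0 ∧ Q v = 0 := by
  classical
  let b := finBasis K V
  let c := finBasis K W
  let f : Fin (finrank K W) → MvPolynomial (Fin (finrank K V)) K := fun w =>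
    ∑ i, C (c.repr (Q (b i)) w) * (X i * X i)
      + ∑ ij ∈ (Finset.univ : Finset (Fin (finrank K V))).sym2 with ¬ ij.IsDiag,
        C (c.repr (QuadraticMap.polarSym2 Q (ij.map b)) w) * (ij.map X).mul
  have hmul : ∀ p : Sym2 (Fin (finrank K V)),
      ((p.map (X : _ → MvPolynomial (Fin (finrank K V)) K)).mul).IsHomogeneous 2 := by
    intro p
    induction p using Sym2.ind with
    | _ i j => simpa using (isHomogeneous_X K i).mul (isHomogeneous_X K j)
  have hf : ∀ w, (f w).IsHomogeneous 2 := by
    intro w
    refine IsHomogeneous.add (IsHomogeneous.sum _ _ _ fun i _ => ?_)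
      (IsHomogeneous.sum _ _ _ fun ij _ => ?_)
    · exact ((isHomogeneous_X K i).mul (isHomogeneous_X K i)).C_mul _
    · exact (hmul ij).C_mul _
  obtain ⟨x, hx, hxz⟩ := exists_zero_functionField F K₀ f two_ne_zero hf
    (by simpa [mul_comm] using h)
  refine ⟨∑ i, x i • b i, fun h0 => hx ?_, ?_⟩
  · funext i
    simpa using Fintype.linearIndependent_iff.1 b.linearIndependent x h0 i
  · refine c.ext_elem fun w => ?_
    have h1 := hxz w
    rw [Q.map_sum]
    simp only [f, map_add, map_sum, map_mul, eval_C, eval_X] at h1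
    rw [map_zero, Finsupp.zero_apply, map_add, Finsupp.add_apply, map_sum, map_sum,
      Finsupp.finsetSum_apply, Finsupp.finsetSum_apply, ← h1]
    congr 1
    · refine Finset.sum_congr rfl fun i _ => ?_
      rw [Q.map_smul, map_smul, Finsupp.smul_apply, smul_eq_mul, mul_comm]
    · refine Finset.sum_congr rfl fun p _ => ?_
      have h2 : QuadraticMap.polarSym2 Q (p.map fun i => x i • b i)
          = (p.map x).mul • QuadraticMap.polarSym2 Q (p.map b) :=
        QuadraticMap.polarSym2_map_smul Q b x p
      have h3 : eval x ((p.map (X : _ → MvPolynomial (Fin (finrank K V)) K)).mul)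
          = (p.map x).mul := by
        induction p using Sym2.ind with
        | _ i j => simp
      rw [h2, map_smul, Finsupp.smul_apply, smul_eq_mul, h3, mul_comm]

end Quad

section Nrd

/-- The reduced norm is onto for division algebras over global function fields. -/
theorem exists_det_eq (F : Type*) [Field F] [Finite F] (K₀ : Type*) [Field K₀]
    [Algebra (Polynomial F) K₀] [IsFractionRing (Polynomial F) K₀]
    {K : Type*} [Field K] [Algebra K₀ K] [FiniteDimensional K₀ K]
    {D Ω : Type*} [DivisionRing D] [Algebra K D] [FiniteDimensional K D] [Field Ω] [Algebra K Ω]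
    {n : ℕ} (hdim : finrank K D = n ^ 2) (f : D →ₐ[K] Matrix (Fin n) (Fin n) Ω)
    (hrat : ∀ x : D, ∃ a : K, (f x).det = algebraMap K Ω a) (a : K) :
    ∃ x : D, (f x).det = algebraMap K Ω a := by
  classical
  have hn : n ≠ 0 := by
    rintro rfl
    have := finrank_pos (R := K) (M := D)
    omega
  rcases eq_or_ne a 0 with rfl | ha
  · refine ⟨0, ?_⟩
    have : Nonempty (Fin n) := ⟨⟨0, Nat.pos_of_ne_zero hn⟩⟩
    rw [map_zero, map_zero, Matrix.det_zero]
  let b := finBasisOfFinrankEq K D hdim
  obtain ⟨Q, hQ, hQe⟩ := exists_detForm f b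
  let P : MvPolynomial (Option (Fin (n ^ 2))) K := rename some Q - C a * X none ^ n
  have hP : P.IsHomogeneous n :=
    (hQ.rename_isHomogeneous).sub (isHomogeneous_C_mul_X_pow _ _ _)
  obtain ⟨y, hy, hyz⟩ := exists_zero_functionField F K₀ (fun _ : Unit => P) hn (fun _ => hP)
    (by simp)
  have h1 := hyz ()
  simp only [P, map_sub, eval_rename, map_mul, eval_C, map_pow, eval_X] at h1
  set x : D := ∑ j, y (some j) • b j with hx
  obtain ⟨c, hc⟩ := hrat x
  rw [show (y ∘ some) = fun j => y (some j) from rfl, hQe (fun j => y (some j)) c hc] at h1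
  have hz : y none ≠ 0 := by
    intro h0
    rw [h0, zero_pow hn, mul_zero, sub_zero] at h1
    have hx0 : x = 0 := by
      by_contra hne
      have hu : IsUnit ((f x).det) := (Matrix.isUnit_iff_isUnit_det _).1
        ((IsUnit.mk0 x hne).map f)
      rw [hc, h1, map_zero] at hu
      exact not_isUnit_zero hu
    refine hy (funext fun j => ?_)
    cases j with
    | none => exact h0
    | some j =>
      exact Fintype.linearIndependent_iff.1 b.linearIndependent (fun j => y (some j))
        (hx ▸ hx0) j
  refine ⟨(y none)⁻¹ • x, ?_⟩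
  rw [det_smul_alg, hc, ← map_mul, sub_eq_zero.1 h1, inv_pow, mul_comm a, ← mul_assoc,
    inv_mul_cancel₀ (pow_ne_zero _ hz), one_mul]

end Nrd

section UnitaryNrd

variable {k K D : Type*} [Field k] [Field K] [StarRing K] [Algebra k K] [DivisionRing D]
  [StarRing D] [Algebra K D]

/-- Symmetric elements span the algebra. -/
theorem exists_symm_basis {θ : K} (hθ : star θ ≠ θ)
    (hstar : ∀ c : K, star (algebraMap K D c) = algebraMap K D (star c))
    [FiniteDimensional K D] {m : ℕ} (hdim : finrank K D = m) :
    ∃ b : Fin m → D, LinearIndependent K b ∧ ∀ j, star (b j) = b j := by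
  classical
  have hη : θ - star θ ≠ 0 := sub_ne_zero.2 fun h => hθ h.symm
  have hspan : Submodule.span K {x : D | star x = x} = ⊤ := by
    refine eq_top_iff.2 fun x _ => ?_
    have hst : ∀ (c : K) (y : D), star (c • y) = star c • star y := by
      intro c y
      rw [Algebra.smul_def, Algebra.smul_def, star_mul, hstar, Algebra.commutes]
    set e := (θ - star θ)⁻¹ with he
    have he' : star e = -e := by
      rw [he, star_inv₀, star_sub, star_star, ← neg_sub, inv_neg]
    have h1 : star (e • (x - star x)) = e • (x - star x) := by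
      rw [hst, he', star_sub, star_star, neg_smul, ← smul_neg, neg_sub]
    have h2 : star (e • (θ • star x - star θ • x)) = e • (θ • star x - star θ • x) := by
      rw [hst, he', star_sub, hst, hst, star_star, star_star, neg_smul, ← smul_neg, neg_sub]
    have h3 : x = θ • (e • (x - star x)) + e • (θ • star x - star θ • x) := by
      rw [smul_comm θ e, ← smul_add, smul_sub]
      have : θ • x - θ • star x + (θ • star x - star θ • x) = (θ - star θ) • x := by
        rw [sub_smul]; abel
      rw [this, smul_smul, he, inv_mul_cancel₀ hη, one_smul]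
    rw [h3]
    exact add_mem (Submodule.smul_mem _ _ (Submodule.subset_span h1)) (Submodule.subset_span h2)
  obtain ⟨s, hs, hspan', hli⟩ := exists_linearIndependent K {x : D | star x = x}
  rw [hspan] at hspan'
  let B : Basis s K D := Basis.mk hli (by simpa using hspan'.ge)
  have hfin : Fintype s := FiniteDimensional.fintypeBasisIndex B
  have hcard : Fintype.card s = m := by rw [← hdim, finrank_eq_card_basis B]
  let e := (Fintype.equivFinOfCardEq hcard).symm
  exact ⟨fun j => e j, hli.comp e e.injective, fun j => hs (e j).2⟩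

/-- A `k`-linear functional on `K` whose kernel consists of symmetric elements. -/
theorem exists_im (hfix : ∀ x : K, star x = x ↔ x ∈ Set.range (algebraMap k K))
    {θ : K} (hθ : star θ ≠ θ) : ∃ φ : K →ₗ[k] k, ∀ x, φ x = 0 → star x = x := by
  have hη : θ - star θ ≠ 0 := sub_ne_zero.2 fun h => hθ h.symm
  obtain ⟨ψ, hψ⟩ := exists_section k K
  have hstk : ∀ a : k, star (algebraMap k K a) = algebraMap k K a := fun a => (hfix _).2 ⟨a, rfl⟩
  let L : K →ₗ[k] K :=
    { toFun := fun x => (x - star x) / (θ - star θ)
      map_add' := fun x y => by rw [star_add]; ring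
      map_smul' := fun a x => by
        rw [Algebra.smul_def, star_mul, hstk, RingHom.id_apply, Algebra.smul_def]; ring }
  have hL : ∀ x, ∃ a : k, algebraMap k K a = L x := by
    intro x
    refine (hfix _).1 ?_
    change star ((x - star x) / (θ - star θ)) = (x - star x) / (θ - star θ)
    rw [star_div₀, star_sub, star_sub, star_star, star_star, ← neg_sub x, ← neg_sub θ, neg_div_neg_eq]
  refine ⟨ψ.comp L, fun x hx => ?_⟩
  obtain ⟨a, ha⟩ := hL x
  rw [LinearMap.comp_apply, ← ha, hψ] at hx
  rw [hx, map_zero] at ha
  have h2 : (x - star x) / (θ - star θ) = 0 := ha.symm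
  rcases div_eq_zero_iff.1 h2 with h | h
  · exact (sub_eq_zero.1 h).symm
  · exact absurd h hη

/-- Hilbert's theorem 90 for a quadratic extension. -/
theorem exists_ninety {θ : K} (hθ : star θ ≠ θ) {z : K} (hz : z * star z = 1) :
    ∃ w : K, w ≠ 0 ∧ z * star w = w := by
  by_cases h : z = -1
  · refine ⟨θ - star θ, sub_ne_zero.2 fun h => hθ h.symm, ?_⟩
    rw [h, star_sub, star_star]; ring
  · refine ⟨1 + z, fun h0 => h (by linear_combination h0), ?_⟩
    rw [star_add, star_one, mul_add, hz]; ring

variable {Ω : Type*} [Field Ω] [Algebra K Ω]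

/-- **The reduced norm `U(D, *) → K¹` is onto over global function fields**, in every
characteristic: if `z` is an element of norm one of the quadratic extension `K / k`, then `z` is the
reduced norm of a unitary element of the division algebra `D` (with an involution of the second
kind). The unitary element is `(s + c θ) (s + c star θ)⁻¹` with `s` symmetric, `c` in `k`. -/
theorem exists_unitary_det_eq (F : Type*) [Field F] [Finite F] (K₀ : Type*) [Field K₀]
    [Algebra (Polynomial F) K₀] [IsFractionRing (Polynomial F) K₀] [Algebra K₀ k]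
    [FiniteDimensional K₀ k] (hfix : ∀ x : K, star x = x ↔ x ∈ Set.range (algebraMap k K))
    {θ : K} (hθ : star θ ≠ θ) [FiniteDimensional K D]
    (hstar : ∀ c : K, star (algebraMap K D c) = algebraMap K D (star c))
    {n : ℕ} (hdim : finrank K D = n ^ 2) (f : D →ₐ[K] Matrix (Fin n) (Fin n) Ω)
    (hrat : ∀ x : D, ∃ a : K, (f x).det = algebraMap K Ω a)
    (hdet : ∀ (x : D) (a : K), (f x).det = algebraMap K Ω a →
      (f (star x)).det = algebraMap K Ω (star a))
    {z : K} (hz : z * star z = 1) :
    ∃ x : D, x * star x = 1 ∧ star x * x = 1 ∧ (f x).det = algebraMap K Ω z := by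
  classical
  have hn : n ≠ 0 := by
    rintro rfl
    have := finrank_pos (R := K) (M := D)
    omega
  obtain ⟨b, hb, hbs⟩ := exists_symm_basis hθ hstar hdim
  obtain ⟨φ, hφ⟩ := exists_im hfix hθ
  obtain ⟨w, hw, hwz⟩ := exists_ninety hθ hz
  let v : Option (Fin (n ^ 2)) → D := fun o => o.elim (algebraMap K D θ) b
  obtain ⟨Q, hQ, hQe⟩ := exists_detForm f v
  let P : MvPolynomial (Option (Fin (n ^ 2))) k := coeffMap φ (C (star w) * Q)
  have hP : P.IsHomogeneous n := coeffMap_isHomogeneous _ (hQ.C_mul _)
  obtain ⟨y, hy, hyz⟩ := exists_zero_functionField F K₀ (fun _ : Unit => P) hn (fun _ => hP)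
    (by simp)
  have h1 := hyz ()
  simp only [P] at h1
  rw [eval_coeffMap, map_mul, eval_C] at h1
  have hstk : ∀ a : k, star (algebraMap k K a) = algebraMap k K a := fun a => (hfix _).2 ⟨a, rfl⟩
  set s : D := ∑ j, algebraMap k K (y (some j)) • b j with hs
  set c : K := algebraMap k K (y none) with hc
  have hss : star s = s := by
    rw [hs, star_sum]
    refine Finset.sum_congr rfl fun j _ => ?_
    rw [Algebra.smul_def, star_mul, hstar, hstk, hbs, Algebra.commutes]
  set t : D := s + algebraMap K D (c * θ) with ht
  have htt : star t = s + algebraMap K D (c * star θ) := by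
    rw [ht, star_add, hss, hstar, star_mul, hc, hstk, mul_comm]
  have htsum : ∑ o, (algebraMap k K (y o)) • v o = t := by
    rw [Fintype.sum_option, add_comm, ht, hs, hc]
    simp [v, Algebra.smul_def]
  obtain ⟨a, ha⟩ := hrat t
  rw [hQe (fun o => algebraMap k K (y o)) a (by rw [htsum, ha])] at h1
  have h2 := hφ _ h1
  rw [star_mul, star_star] at h2
  -- `t` is not zero
  have ht0 : t ≠ 0 := by
    intro h0
    have h3 : star t = 0 := by rw [h0, star_zero]
    have h4 : algebraMap K D (c * (θ - star θ)) = 0 := by
      have : t - star t = algebraMap K D (c * (θ - star θ)) := by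
        rw [htt, ht, mul_sub, map_sub]; abel
      rw [← this, h3, h0, sub_zero]
    have h5 : c = 0 := by
      have := (map_eq_zero (algebraMap K D)).1 h4
      rcases mul_eq_zero.1 this with h | h
      · exact h
      · exact absurd (sub_eq_zero.1 h).symm hθ
    have h6 : s = 0 := by
      have := h0
      rwa [ht, h5, zero_mul, map_zero, add_zero] at this
    refine hy (funext fun o => ?_)
    cases o with
    | none => exact (map_eq_zero (algebraMap k K)).1 (hc ▸ h5)
    | some j =>
      have := Fintype.linearIndependent_iff.1 hb (fun j => algebraMap k K (y (some j)))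
        (hs ▸ h6) j
      exact (map_eq_zero (algebraMap k K)).1 this
  have hst0 : star t ≠ 0 := star_ne_zero.2 ht0
  have hcomm : t * star t = star t * t := by
    rw [htt, ht]
    simp only [mul_add, add_mul, ← map_mul, Algebra.commutes, mul_comm (c * θ)]
    rw [← Algebra.commutes (c * θ) s, ← Algebra.commutes (c * star θ) s]
    abel
  have ha0 : a ≠ 0 := by
    rintro rfl
    have hu : IsUnit ((f t).det) := (Matrix.isUnit_iff_isUnit_det _).1 ((IsUnit.mk0 t ht0).map f)
    rw [ha, map_zero] at hu
    exact not_isUnit_zero hu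
  have hsa0 : star a ≠ 0 := star_ne_zero.2 ha0
  have hsw0 : star w ≠ 0 := star_ne_zero.2 hw
  refine ⟨t * (star t)⁻¹, ?_, ?_, ?_⟩
  · rw [star_mul, star_inv₀, star_star, mul_assoc, ← mul_assoc (star t)⁻¹,
      ← mul_inv_rev, hcomm, mul_inv_rev, mul_assoc, inv_mul_cancel₀ hst0, mul_one,
      mul_inv_cancel₀ ht0]
  · have h7 : Commute t (star t) := hcomm
    rw [star_mul, star_inv₀, star_star, mul_assoc, ← mul_assoc (star t) t, ← hcomm, mul_assoc,
      mul_inv_cancel₀ hst0, mul_one, inv_mul_cancel₀ ht0]
  · have h8 : (f (t * (star t)⁻¹)).det * algebraMap K Ω (star a) = algebraMap K Ω a := by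
      rw [← hdet t a ha, ← Matrix.det_mul, ← map_mul, mul_assoc, inv_mul_cancel₀ hst0, mul_one, ha]
    have h9 : a = z * star a := by
      have : star w * a = star w * (z * star a) := by
        rw [← mul_assoc, mul_comm (star w) z, hwz, ← h2, mul_comm]
      exact mul_left_cancel₀ hsw0 this
    have h10 : algebraMap K Ω (star a) ≠ 0 := (map_ne_zero _).2 hsa0
    apply mul_right_cancel₀ h10
    rw [h8, ← map_mul, ← h9]

end UnitaryNrd

end Vale.Agent.P011.H268
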